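import Vale.Agent.P092GI.OneF
import Vale.Agent.P092HR.Glue
import Vale.Agent.P092RK.CoreE
import Vale.Agent.P092MG.Ac
import Vale.Agent.P092EG.End
import Vale.Agent.P092PG.Main

/-!
P092, final glue: the statement in higher rank and Q1.
-/

set_option autoImplicit false
set_option linter.all false

namespace Vale.Agent.P092GI

open Vale.Agent.P092 Vale.Agent.P092GV Vale.Agent.P092HR

theorem hrf (k : Type) [NontriviallyNormedField k] : HRF k := fun G _ _ _ _ _ _ _ _ r F g h => by
  haveI := g.fl.isClosed_P Finset.univ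
  haveI := g.fl.isClosed_N Finset.univ
  haveI := g.fl.compactY Finset.univ
  exact over_of P092MG.ac g (fun K _ _ _ W C => P092RK.core_end
    fun _ _ _ _ _ _ _ _ _ _ _ _ a b c d => P092EG.endg a b c d) h

/-- **Q1** -/
theorem full (I : Type) [Fintype I] (G : I → Type) [∀ i, Group (G i)] [∀ i, TopologicalSpace (G i)]
    (h : ∀ i, SimplePts (G i) ∧ ¬ CompactSpace (G i) ∧ UN.HasTC (G i))
    (Γ : Subgroup (∀ i, G i)) (hl : UN.IsLattice Γ) (hicc : UN.ICC Γ) : Q1 Γ :=
  full_of P092PG.pgs hrf I G h Γ hl hicc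

end Vale.Agent.P092GI
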