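import Vale.Agent.P092GI.Hrs
import Vale.Agent.P092GV.StG

/-!
P092, final glue: the statement in the form of the hand-in.
-/

set_option autoImplicit false
set_option linter.all false

namespace Vale.Agent.P092GI

open Vale.Agent.P092 Vale.Agent.P092GP Vale.Agent.P092GV

section

variable {k K : Type} [Field k] [Field K] [Algebra k K] {n : ℕ} {H : Subgroup (GL (Fin n) K)}

theorem mem_vanish {p : P092AG.Pl n k} : p ∈ vanish k H ↔
    MvPolynomial.map (algebraMap k K) p ∈ P092AG.van (H : Set (GL (Fin n) K)) := by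
  have e : ∀ x : Fin n × Fin n → K,
      MvPolynomial.eval x (MvPolynomial.map (algebraMap k K) p) = MvPolynomial.aeval x p :=
    fun x => MvPolynomial.eval_map _ _ _
  refine ⟨fun h g hg => (e _).trans (h _ ⟨g, hg, fun _ _ => rfl⟩), ?_⟩
  rintro h x ⟨g, hg, a⟩
  obtain rfl : x = fun ij => g.1 ij.1 ij.2 := funext fun ij => a ij.1 ij.2
  exact (e _).symm.trans (h g hg)

theorem vanish_eq : vanish K H = P092AG.van (H : Set (GL (Fin n) K)) := by
  ext p
  rw [mem_vanish, Algebra.algebraMap_self, MvPolynomial.map_id]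

theorem zcl_iff : ZClosed H ↔ P092AG.ZCl (H : Set (GL (Fin n) K)) := by
  unfold ZClosed
  rw [vanish_eq]
  rfl

theorem abs_of (h : AbsSimple k H) : P092AG.AbsSimple k H := by
  refine ⟨zcl_iff.1 h.closed, vanish_eq (H := H) ▸ h.connected, ?_, h.noncomm,
    fun N a b c => (h.simple N a (zcl_iff.2 b) c).imp_right fun d => d⟩
  refine (vanish_eq.symm.trans h.defined).le.trans (Ideal.span_mono ?_)
  rintro _ ⟨p, hp, rfl⟩
  exact ⟨mem_vanish.1 hp, p, rfl⟩

end

theorem ls_of_pts {G : Type} [Group G] [TopologicalSpace G] (h : SimplePts G)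
    (hc : ¬ CompactSpace G) : ∃ (k : Type) (_ : NontriviallyNormedField k) (L : LD k G), L.LS := by
  obtain ⟨k, a, K, n, 𝔾, b, e⟩ := h
  haveI := IsAlgClosure.isAlgClosed k (K := K)
  obtain ⟨L, c, -⟩ := P092R1.lit_all a (abs_of b) fun d =>
    hc (@Homeomorph.compactSpace _ _ _ _ d e.toHomeomorph.symm)
  obtain ⟨L', d, -⟩ := P092LS.ls_iso c e.toMulEquiv e.toHomeomorph.isHomeomorph
  exact ⟨k, _, L', d⟩

/-- **Q1 from the product glue and the statement in higher rank for flag data.** -/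
theorem full_of (hP : P092PG.PGS) (hH : ∀ (k : Type) [NontriviallyNormedField k], HRF k)
    (I : Type) [Fintype I] (G : I → Type) [∀ i, Group (G i)] [∀ i, TopologicalSpace (G i)]
    (h : ∀ i, SimplePts (G i) ∧ ¬ CompactSpace (G i) ∧ UN.HasTC (G i))
    (Γ : Subgroup (∀ i, G i)) (hl : UN.IsLattice Γ) (hicc : UN.ICC Γ) : Q1 Γ := by
  choose k _ L a using fun i => ls_of_pts (h i).1 (h i).2.1
  exact q1_of hicc (P092R1.super_pi hP a (fun i => P092R1.core_all (hrs_of (hH _)) _)
    (fun i => UN.kazT_of_hasTC (h i).2.2) Γ hl hicc)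

end Vale.Agent.P092GI
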