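import Vale.Agent.P092GI.Inst
import Vale.Agent.P092GK.Tor
import Vale.Agent.P092RH.Lp
import Vale.Agent.P092R1.Fin
import Vale.Agent.P092GV.Lit

/-!
P092, final glue: from the flag data to the core statement in higher rank.
-/

set_option autoImplicit false
set_option linter.all false

open MeasureTheory

namespace Vale.Agent.P092GI

open Vale.Agent.P092 Vale.Agent.P092GK Vale.Agent.P092GP Vale.Agent.P092HR
open Vale.Agent.P092GB (TD)
open Vale.Agent.P092.H678.OV (OverStmt)

variable {k G : Type} [NontriviallyNormedField k] [Group G] [TopologicalSpace G] {L : LD k G}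

theorem sepR_lp [IsTopologicalGroup G] [MeasurableSpace G] [BorelSpace G] (H : L.LP) (ht : L.Gp = ⊤)
    (hu : ¬ IsUltrametricDist k) : SepR L.fl := fun K ℓ U n e mℓ hU hℓ => by
  haveI := H.t2
  haveI := H.lc
  haveI := H.sc
  haveI := H.prop
  haveI := P092GV.rightInv H.ok (by rw [ht]; infer_instance)
  exact P092RH.sep_lp H hu e (H.fl.pos_ρ Measure.haar) mℓ hU hℓ

/-- the statement in higher rank for flag data -/
def HRF (k : Type) [NontriviallyNormedField k] : Prop :=
  ∀ [ProperSpace k] (G : Type) [Group G] [TopologicalSpace G] [IsTopologicalGroup G]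
    [LocallyCompactSpace G] [SecondCountableTopology G] [T2Space G] [MeasurableSpace G]
    [BorelSpace G] (r : ℕ) (F : FlD k G r), Gr F →
      (TD G ∧ Lat F) ∨ ((∃ A, Tor F A) ∧ SepR F) → OverStmt G

theorem hrs_of (h : HRF k) : P092R1.HRS k := fun G _ _ L a b c d e => by
  haveI := a.lp.top
  haveI := a.lp.t2
  haveI := a.lp.lc
  haveI := a.lp.sc
  haveI := a.lp.prop
  letI := borel G
  haveI : BorelSpace G := ⟨rfl⟩
  refine h G _ L.fl (gr_lp a.lp b c d e) ?_
  by_cases hu : IsUltrametricDist k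
  · exact .inl ⟨td_lp a.lp, lat_lp a.lp⟩
  · exact .inr ⟨exists_tor a.lp hu, sepR_lp a.lp b hu⟩

open P092AG in
/-- **Q1 from the product glue and the statement in higher rank for flag data.** -/
theorem q1_hr (hP : P092PG.PGS) (hH : ∀ (k : Type) [NontriviallyNormedField k], HRF k)
    (I : Type) [Fintype I] (k K : I → Type) [∀ i, NontriviallyNormedField (k i)]
    [∀ i, ProperSpace (k i)] [∀ i, Field (K i)] [∀ i, Algebra (k i) (K i)]
    [∀ i, IsAlgClosure (k i) (K i)] (n : I → ℕ) (𝔾 : ∀ i, Subgroup (GL (Fin (n i)) (K i)))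
    (h : ∀ i, UN.LocK (k i) ∧ AbsSimple (k i) (𝔾 i) ∧ ¬ CompactSpace (pts (k i) (𝔾 i)) ∧
      UN.HasTC (pts (k i) (𝔾 i)))
    (Γ : Subgroup (∀ i, pts (k i) (𝔾 i))) (hl : UN.IsLattice Γ) (hicc : UN.ICC Γ) :
    P092GV.Q1 Γ :=
  P092GV.q1_of hicc (P092R1.q1 hP (fun k _ => hrs_of (hH k)) I k K n 𝔾 h Γ hl hicc)

end Vale.Agent.P092GI
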