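import Vale.Agent.P092HR.Defs
import Vale.Agent.P092GB.Root
import Vale.Agent.P092GP.Flag
import Vale.Agent.P092.H35.Rp.Bas
import Mathlib.Algebra.Module.ZLattice.Basic

/-!
P092, higher rank: the group side from the linear package.
-/

set_option autoImplicit false
set_option linter.all false

open Filter Topology Set

namespace Vale.Agent.P092GI

open Vale.Agent.P092 Vale.Agent.P092GK Vale.Agent.P092GP Vale.Agent.P092GP.LD Vale.Agent.P092HR
open Vale.Agent.P092GB (TD)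

variable {k G : Type} [NontriviallyNormedField k] [Group G] [TopologicalSpace G]

theorem lat_of [IsTopologicalGroup G] [T2Space G] {r : ℕ} {F : FlD k G r} (h : Fl F) (td : TD G) :
    Lat F := by
  let A : AddSubgroup (Fin r → ℝ) :=
    { carrier := {x | ∃ z ∈ F.Z, F.ℓ z = x}
      zero_mem' := ⟨1, one_mem _, h.ℓ_one⟩
      add_mem' := by
        rintro _ _ ⟨a, ha, rfl⟩ ⟨b, hb, rfl⟩
        exact ⟨_, mul_mem ha hb, h.ℓ_mul ha hb⟩
      neg_mem' := by
        rintro _ ⟨a, ha, rfl⟩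
        exact ⟨_, inv_mem ha, h.ℓ_inv ha⟩ }
  haveI : DiscreteTopology A.toIntSubmodule := by
    refine discreteTopology_of_isOpen_singleton_zero ?_
    have h1 : (F.ℓ '' {z | z ∈ F.Z ∧ ∀ i, |F.ℓ z i| ≤ 1} \ {0}).Finite :=
      (P092GB.fin_ℓ h td 1).subset diff_subset
    refine isOpen_induced_iff.2 ⟨Metric.ball 0 1 \ _, Metric.isOpen_ball.sdiff h1.isClosed, ?_⟩
    ext ⟨_, z, a, rfl⟩
    refine ⟨fun b => Subtype.ext (by_contra fun c => b.2 ⟨⟨z, ⟨a, fun i => ?_⟩, rfl⟩, c⟩), fun b => ?_⟩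
    · exact (norm_le_pi_norm (F.ℓ z) i).trans (mem_ball_zero_iff.1 b.1).le
    · have c : F.ℓ z = 0 := congrArg Subtype.val b
      exact ⟨by simp [c], fun d => d.2 c⟩
  haveI : IsZLattice ℝ A.toIntSubmodule := ⟨top_le_iff.1 (by
    rw [← (Pi.basisFun ℝ (Fin r)).span_eq, Submodule.span_le]
    rintro _ ⟨i, rfl⟩
    have : Pi.basisFun ℝ (Fin r) i = F.β⁻¹ • F.ℓ (F.b i) := by
      rw [h.bℓ, Pi.basisFun_apply, ← Pi.single_smul', smul_eq_mul, inv_mul_cancel₀ h.β_pos.ne']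
    rw [this]
    exact Submodule.smul_mem _ _ (Submodule.subset_span ⟨_, h.bZ i, rfl⟩))⟩
  refine ⟨(IsZLattice.basis A.toIntSubmodule).ofZLatticeBasis ℝ _, fun x => ?_⟩
  refine Iff.trans ?_ ((Module.Basis.mem_span_iff_repr_mem ℤ _ x).trans
    (forall_congr' fun i => ⟨fun ⟨m, a⟩ => ⟨m, a.symm⟩, fun ⟨m, a⟩ => ⟨m, a.symm⟩⟩))
  rw [Module.Basis.ofZLatticeBasis_span]
  rfl

variable {L : LD k G}

theorem gr_lp (H : L.LP) (ht : L.Gp = ⊤) (hz : Subgroup.center G = ⊥) (hT : UN.KazT G)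
    (hr : 2 ≤ L.R.r) : Gr L.fl :=
  ⟨H.fl, ⟨_, H.pan⟩, by
    rw [← ht, P092GH.Gp, Subgroup.closure_union, Subgroup.closure_eq, Subgroup.closure_eq]
    rfl, hz, hT, hr⟩

theorem td_lp [IsUltrametricDist k] (H : L.LP) : TD G := by
  haveI := H.top
  haveI := H.prop
  exact fun O hO => H35.Rp.basis H.cemb hO

theorem lat_lp [IsUltrametricDist k] (H : L.LP) : Lat L.fl :=
  haveI := H.top
  haveI := H.t2
  lat_of H.fl (td_lp H)

end Vale.Agent.P092GI
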