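import Vale.Agent.P092GI.Full

/-!
P092, final glue: one factor.
-/

set_option autoImplicit false
set_option linter.all false

namespace Vale.Agent.P092GI

open Vale.Agent.P092 Vale.Agent.P092GP Vale.Agent.P092GV

theorem one_of (hH : ∀ (k : Type) [NontriviallyNormedField k], HRF k)
    (G : Type) [Group G] [TopologicalSpace G] (h : SimplePts G) (hc : ¬ CompactSpace G)
    (hT : UN.HasTC G) (Γ : Subgroup G) (hl : UN.IsLattice Γ) (hicc : UN.ICC Γ) : Q1 Γ := by
  obtain ⟨k, _, L, a⟩ := ls_of_pts h hc
  exact q1_of hicc (superAll_one a (UN.kazT_of_hasTC hT) (P092R1.core_all (hrs_of (hH _)) _) hicc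
    Γ.subtype Subtype.val_injective (by rw [Subgroup.range_subtype]; exact ⟨hl.disc, hl.covol⟩))

end Vale.Agent.P092GI
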